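import Vale.Agent.P105.Defs

/-!
# P105 / H11 : subadditivity of the entropy of the partial sums and the Gibbs inequality (helper11, for helper892)

* `psumEntropy_add_le` : `H(X_(n+m)) ≤ H(X_n) + H(X_m)`; `garsia_le` : `h ≤ H(X_n) / n`.
* `gibbs` : `H(X_n) ≤ log ∑_y exp (F y) - E F(X_n)`.
-/

set_option autoImplicit false

open Real Filter Topology Finset

namespace Vale.Agent.P105.H11

variable (lam : ℝ) (n : ℕ)

theorem prob_pos (e : Fin n → Bool) : 0 < psumProb lam n (psum lam n e) := by
  classical
  unfold psumProb
  refine div_pos ?_ (by positivity)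
  have : 0 < (univ.filter fun e' : Fin n → Bool => psum lam n e' = psum lam n e).card :=
    card_pos.2 ⟨e, by simp⟩
  exact_mod_cast this

theorem prob_nonneg (x : ℝ) : 0 ≤ psumProb lam n x := by
  unfold psumProb
  positivity

/-- expectation of a function of the partial sum -/
theorem prob_sum (G : ℝ → ℝ) : ∑ y ∈ univ.image (psum lam n), psumProb lam n y * G y =
    (∑ e, G (psum lam n e)) / 2 ^ n := by
  classical
  have h := Finset.sum_comp (s := (univ : Finset (Fin n → Bool))) (f := G) (g := psum lam n)
  rw [h, Finset.sum_div]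
  refine Finset.sum_congr rfl fun x _ => ?_
  unfold psumProb
  rw [nsmul_eq_mul]
  ring

theorem prob_one : ∑ y ∈ univ.image (psum lam n), psumProb lam n y = 1 := by
  have h := prob_sum lam n fun _ => 1
  simp only [mul_one, sum_const, card_univ, Fintype.card_pi, Fintype.card_bool, prod_const, Fintype.card_fin, nsmul_eq_mul,
    Nat.cast_pow, Nat.cast_ofNat] at h
  rw [h, div_self (by positivity)]

theorem ent_eq : psumEntropy lam n = (∑ e, -log (psumProb lam n (psum lam n e))) / 2 ^ n := by
  rw [← prob_sum lam n fun y => -log (psumProb lam n y)]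
  unfold psumEntropy negMulLog
  exact Finset.sum_congr rfl fun x _ => by ring

theorem prob_le_one (x : ℝ) : psumProb lam n x ≤ 1 := by
  classical
  unfold psumProb
  rw [div_le_one (by positivity)]
  have h := Finset.card_le_univ (Finset.univ.filter fun e : Fin n → Bool => psum lam n e = x)
  have hcard : Fintype.card (Fin n → Bool) = 2 ^ n := by
    simp only [Fintype.card_pi, Fintype.card_bool, Finset.prod_const, Finset.card_univ, Fintype.card_fin]
  rw [hcard] at h
  exact_mod_cast h

theorem ent_nonneg : 0 ≤ psumEntropy lam n := by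
  unfold psumEntropy
  exact Finset.sum_nonneg fun x _ => negMulLog_nonneg (prob_nonneg lam n x) (prob_le_one lam n x)

/-- **[D]** Gibbs inequality -/
theorem gibbs (F : ℝ → ℝ) : psumEntropy lam n ≤ log (∑ y ∈ Finset.univ.image (psum lam n), exp (F y)) -
    (∑ e : Fin n → Bool, F (psum lam n e)) / 2 ^ n := by
  classical
  set s := Finset.univ.image (psum lam n) with hs
  have hne : s.Nonempty := ⟨psum lam n fun _ => true, by rw [hs, mem_image]; exact ⟨_, mem_univ _, rfl⟩⟩
  set Z := ∑ y ∈ s, exp (F y) with hZ
  have hZ0 : 0 < Z := sum_pos (fun _ _ => exp_pos _) hne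
  rw [← prob_sum lam n F]
  have hp : ∀ y ∈ s, 0 < psumProb lam n y := fun y hy => by
    rw [hs, mem_image] at hy
    obtain ⟨e, -, rfl⟩ := hy
    exact prob_pos lam n e
  have h1 : ∀ y ∈ s, negMulLog (psumProb lam n y) + psumProb lam n y * F y - psumProb lam n y * log Z ≤
      exp (F y) / Z - psumProb lam n y := fun y hy => by
    have hy0 := hp y hy
    have h2 : log (exp (F y) / (psumProb lam n y * Z)) ≤ exp (F y) / (psumProb lam n y * Z) - 1 :=
      log_le_sub_one_of_pos (by positivity)
    rw [log_div (exp_pos _).ne' (by positivity), log_exp, log_mul hy0.ne' hZ0.ne'] at h2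
    have h3 := mul_le_mul_of_nonneg_left h2 hy0.le
    have h4 : psumProb lam n y * (exp (F y) / (psumProb lam n y * Z) - 1) = exp (F y) / Z - psumProb lam n y := by
      field_simp
    rw [h4] at h3
    unfold negMulLog
    linarith
  have h2 := sum_le_sum h1
  rw [sum_sub_distrib, sum_add_distrib, sum_sub_distrib, ← sum_mul, ← sum_div, prob_one, div_self hZ0.ne', one_mul] at h2
  unfold psumEntropy
  linarith

/-- the partial sum of `n + m` terms -/
theorem psum_append (m : ℕ) (e : Fin n → Bool) (e' : Fin m → Bool) :
    psum lam (n + m) (Fin.append e e') = psum lam n e + lam ^ n * psum lam m e' := by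
  unfold psum
  rw [Fin.sum_univ_add, mul_sum]
  congr 1
  · refine sum_congr rfl fun i _ => ?_
    rw [Fin.append_left]
    rfl
  · refine sum_congr rfl fun i _ => ?_
    rw [Fin.append_right]
    show sgn (e' i) * lam ^ (n + (i : ℕ)) = _
    rw [pow_add]
    ring

theorem append_inj {m : ℕ} {e f : Fin n → Bool} {e' f' : Fin m → Bool} (h : Fin.append e e' = Fin.append f f') :
    e = f ∧ e' = f' := by
  constructor
  · funext i
    have := congrFun h (Fin.castAdd m i)
    rwa [Fin.append_left, Fin.append_left] at this
  · funext i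
    have := congrFun h (Fin.natAdd n i)
    rwa [Fin.append_right, Fin.append_right] at this

theorem prob_mul_le (m : ℕ) (e : Fin n → Bool) (e' : Fin m → Bool) :
    psumProb lam n (psum lam n e) * psumProb lam m (psum lam m e') ≤
      psumProb lam (n + m) (psum lam (n + m) (Fin.append e e')) := by
  classical
  unfold psumProb
  rw [div_mul_div_comm, ← pow_add]
  refine div_le_div_of_nonneg_right ?_ (by positivity)
  have h : (univ.filter fun f : Fin n → Bool => psum lam n f = psum lam n e).card *
      (univ.filter fun f : Fin m → Bool => psum lam m f = psum lam m e').card ≤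
      (univ.filter fun f : Fin (n + m) → Bool => psum lam (n + m) f = psum lam (n + m) (Fin.append e e')).card := by
    rw [← card_product]
    refine card_le_card_of_injOn (fun a => Fin.append a.1 a.2) ?_ ?_
    · intro a ha
      rw [mem_coe, mem_product, mem_filter, mem_filter] at ha
      rw [mem_coe, mem_filter]
      refine ⟨mem_univ _, ?_⟩
      rw [psum_append, psum_append, ha.1.2, ha.2.2]
    · intro a _ b _ hab
      have := append_inj n hab
      exact Prod.ext this.1 this.2
  exact_mod_cast h

/-- sum over the words of length `n + m` -/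
theorem sum_append (m : ℕ) (G : (Fin (n + m) → Bool) → ℝ) : ∑ f, G f = ∑ e : Fin n → Bool, ∑ e' : Fin m → Bool, G (Fin.append e e') := by
  rw [← Fintype.sum_prod_type' (f := fun (e : Fin n → Bool) (e' : Fin m → Bool) => G (Fin.append e e'))]
  refine (Fintype.sum_bijective (fun a : (Fin n → Bool) × (Fin m → Bool) => Fin.append a.1 a.2) ?_ _ _ fun _ => rfl).symm
  rw [Fintype.bijective_iff_injective_and_card]
  refine ⟨fun a b hab => ?_, ?_⟩
  · have := append_inj n hab
    exact Prod.ext this.1 this.2
  · simp only [Fintype.card_prod, Fintype.card_pi, Fintype.card_bool, prod_const, card_univ, Fintype.card_fin, pow_add]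

/-- **subadditivity** -/
theorem psumEntropy_add_le (m : ℕ) : psumEntropy lam (n + m) ≤ psumEntropy lam n + psumEntropy lam m := by
  rw [ent_eq, ent_eq, ent_eq, sum_append]
  have h1 : ∑ e : Fin n → Bool, ∑ e' : Fin m → Bool, -log (psumProb lam (n + m) (psum lam (n + m) (Fin.append e e'))) ≤
      ∑ e : Fin n → Bool, ∑ e' : Fin m → Bool, (-log (psumProb lam n (psum lam n e)) + -log (psumProb lam m (psum lam m e'))) := by
    refine sum_le_sum fun e _ => sum_le_sum fun e' _ => ?_
    have h2 := log_le_log (mul_pos (prob_pos lam n e) (prob_pos lam m e')) (prob_mul_le lam n m e e')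
    rw [log_mul (prob_pos lam n e).ne' (prob_pos lam m e').ne'] at h2
    linarith
  have h2 : ∑ e : Fin n → Bool, ∑ e' : Fin m → Bool, (-log (psumProb lam n (psum lam n e)) + -log (psumProb lam m (psum lam m e'))) =
      2 ^ m * ∑ e, -log (psumProb lam n (psum lam n e)) + 2 ^ n * ∑ e', -log (psumProb lam m (psum lam m e')) := by
    simp only [sum_add_distrib, sum_const, card_univ, Fintype.card_pi, Fintype.card_bool, prod_const, Fintype.card_fin,
      nsmul_eq_mul, Nat.cast_pow, Nat.cast_ofNat, mul_sum]
  rw [div_add_div _ _ (by positivity) (by positivity), pow_add]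
  refine div_le_div_of_nonneg_right ?_ (by positivity)
  rw [h2] at h1
  linarith

theorem psumEntropy_mul_le (n k : ℕ) : psumEntropy lam ((k + 1) * n) ≤ (k + 1 : ℕ) * psumEntropy lam n := by
  induction k with
  | zero => simp
  | succ k ih =>
    have h1 := psumEntropy_add_le lam ((k + 1) * n) n
    have e : (k + 1) * n + n = (k + 1 + 1) * n := by ring
    rw [e] at h1
    push_cast at ih ⊢
    linarith

/-- **[G]** the Garsia entropy is at most `H(X_n) / n` -/
theorem garsia_le {n : ℕ} (hn : 0 < n) : garsiaEntropy lam ≤ psumEntropy lam n / n := by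
  unfold garsiaEntropy
  refine Filter.liminf_le_of_frequently_le ?_ ?_
  · rw [frequently_atTop]
    intro N
    refine ⟨(N + 1) * n, ?_, ?_⟩
    · nlinarith
    · have hn' : (0:ℝ) < n := by exact_mod_cast hn
      have hN : (0:ℝ) < ((N + 1 : ℕ) : ℝ) := by positivity
      have h1 := psumEntropy_mul_le lam n N
      rw [div_le_div_iff₀ (by push_cast at hN ⊢; positivity) hn']
      push_cast at h1 ⊢
      have h2 := mul_le_mul_of_nonneg_right h1 hn'.le
      linarith
  · refine ⟨0, ?_⟩
    rw [eventually_map]
    exact Eventually.of_forall fun k => div_nonneg (ent_nonneg lam k) (Nat.cast_nonneg _)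

end Vale.Agent.P105.H11
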